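import Vale.Agent.P352X.R.G1
import Vale.Agent.P352Z.Api1C
import Vale.Agent.P352Z.R.Br

/-!
# P352Z, rows DD, NL: covariant distributions, generators, integration along light rays
-/

set_option linter.all false

noncomputable section

open Set Filter Topology Metric MeasureTheory
open scoped SchwartzMap ContDiff

namespace Vale.Agent.P352X.ZZ

open Vale.Agent.P352 Vale.Agent.P352.GF Vale.Agent.P352.H246 Vale.Agent.P352.H755
open Vale.Agent.P352.H15
open Vale.Agent.P352.BW (om)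
open Vale.Agent.P352.H496 (IsNull)
open UniformSpace (Completion)
open Complex (I)

namespace G1

export Vale.Agent.P352X.G1 (Cl Lo lo_id pd_eq lo_pd lo_bar tg_lin lo_dv lo_box bm lo_bm lo_Bc
  lo_Kc tr cl_tr tr_tr tr_zero in_iff diff mono all in_comp in_tr in_gap in_scp in_add in_div
  dv_eq Kc_eq Kc_bar Kc_add Kc_lin Kc_tr al_cK be_cK tx_cK BD Hs ev_hs ex_hs mem_Rc ex_rc ex_cone
  ext_lin der pr_symm pr_sub w1 tsupp_tr hs_tr ev_adm hs_le bd_sub bm_tr in_bm)

variable {D : Type*} [NormedAddCommGroup D] [InnerProductSpace ℂ D] {c : Ctx D}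
  {Φ Φ' : Fn →ₗ[ℂ] Completion D} {φ φ' ψ : Fn → Completion D} {x y : ℝ} {f g : Fn}

/-- translation covariant distributions -/
structure Tc (c : Ctx D) (φ : Fn → Completion D) : Prop where
  lin : ∀ (f g : Fn) (a : ℂ), In univ f → In univ g → φ (fun z => f z + a * g z) = φ f + a • φ g
  bd : ∀ K, IsCompact K → BD K fun f => ‖φ f‖
  tra : ∀ a f, In univ f → Ut c.Q a (φ fun z => f (z + a)) = φ f
  perp : ∀ f, In univ f → inner ℂ c.Om (φ f) = 0

/-- scalar distributions -/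
structure P0 (c : Ctx D) (φ : Fn → Completion D) : Prop extends Tc c φ where
  rot : ∀ w f, In univ f → Ga c.Q w (φ fun z => f (gap w z)) = φ f
  bo : ∀ t f, In univ f → Bo c.Q t (φ fun z => f (scp (Real.exp t) (Real.exp (-t)) z)) = φ f

theorem tc_of (lin : ∀ (f g : Fn) (a : ℂ), IsTest f → IsTest g →
      φ (fun z => f z + a * g z) = φ f + a • φ g) (cont : Continuous fun g => φ (ev g))
    (tra : ∀ a f, IsTest f → Ut c.Q a (φ fun z => f (z + a)) = φ f)
    (perp : ∀ f, IsTest f → inner ℂ c.Om (φ f) = 0) : Tc c φ where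
  lin f g a hf hg := lin f g a hf.1 hg.1
  bd K _ := by
    have k : ∀ (F G : Sch) (a : ℂ), φ (ev (F + a • G)) = φ (ev F) + a • φ (ev G) :=
      fun F G a => lin _ _ a ⟨F, rfl⟩ ⟨G, rfl⟩
    have k0 : φ (ev 0) = 0 := by simpa using k 0 0 1
    let L : Sch →ₗ[ℂ] Completion D := ⟨⟨fun F => φ (ev F), fun F G => by
      simpa only [one_smul] using k F G 1⟩, fun a F => by
        simpa only [k0, zero_add, RingHom.id_apply] using k 0 F a⟩
    obtain ⟨m, C, -, h⟩ := Lie.clm ((normSeminorm ℂ (Completion D)).comp L) cont.norm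
    exact ⟨m, C, fun g _ => h g⟩
  tra a f hf := tra a f hf.1
  perp f hf := perp f hf.1

theorem cov_tc (h : c.Cov2 φ x y) : Tc c φ := ⟨h.lin, h.bd, h.tra, h.perp⟩

theorem cov_p0 (h : c.Cov2 φ (-1) (-1)) : P0 c φ :=
  ⟨cov_tc h, h.rot, fun t f hf => by
    rw [Bo, h.sca _ _ f (Real.exp_pos t) (Real.exp_pos (-t)) hf, w1, ← mul_inv, ← Complex.ofReal_mul,
      ← Real.exp_add, add_neg_cancel, Real.exp_zero, Complex.ofReal_one, inv_one, one_smul]⟩

theorem cbd (h : c.Cov2 φ x y) {K : Set V} (hK : IsCompact K) : BD K fun f => ‖φ f‖ := h.bd K hK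

theorem Tc.congr (h : Tc c φ) (e : ∀ f, In univ f → ψ f = φ f) : Tc c ψ where
  lin f g a hf hg := by
    rw [e f hf, e g hg, ← h.lin f g a hf hg]
    exact e _ (in_add hf hg a)
  bd K hK := (h.bd K hK).le (N' := fun f => ‖ψ f‖) hK 1 fun f hf => by simp [e f (all hf)]
  tra a f hf := by
    rw [e f hf, ← h.tra a f hf]
    exact congrArg _ (e _ (in_tr hf a fun _ _ => trivial))
  perp f hf := by rw [e f hf, h.perp f hf]

theorem P0.congr (h : P0 c φ) (e : ∀ f, In univ f → ψ f = φ f) : P0 c ψ where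
  toTc := h.toTc.congr e
  rot w f hf := by rw [e f hf, e _ (in_gap hf w fun _ _ => trivial), h.rot w f hf]
  bo t f hf := by
    rw [e f hf, e _ (in_scp hf (Real.exp_pos _) (Real.exp_pos _) fun _ _ => trivial), h.bo t f hf]

theorem cov_congr (h : c.Cov2 φ x y) (e : ∀ f, In univ f → ψ f = φ f) : c.Cov2 ψ x y where
  lin := ((cov_tc h).congr e).lin
  bd := ((cov_tc h).congr e).bd
  tra := ((cov_tc h).congr e).tra
  rot w f hf := by rw [e f hf, e _ (in_gap hf w fun _ _ => trivial), h.rot w f hf]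
  sca r s f hr hs hf := by rw [e f hf, e _ (in_scp hf hr hs fun _ _ => trivial), h.sca r s f hr hs hf]
  perp := ((cov_tc h).congr e).perp

theorem ut_phi (h : Tc c Φ) (hf : In univ f) (a : V) : Ut c.Q a (Φ f) = Φ (tr (-a) f) := by
  have k := h.tra a _ (in_tr hf (-a) fun _ _ => trivial)
  rwa [show (fun z => tr (-a) f (z + a)) = f from funext fun z => by simp [tr]] at k

theorem gn_of {W : ℝ → Completion D →L[ℂ] Completion D} (h : Tc c Φ) (hf : In univ f)
    {g : ℝ → V →L[ℝ] V} {a : ℝ → V} {g' : V →L[ℝ] V} {a' : V} (hg : HasDerivAt g g' 0)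
    (ha : HasDerivAt a a' 0) (g0 : g 0 = 1) (a0 : a 0 = 0) {σ : ℝ → V → V}
    (e : ∀ t z, g t z + a t = σ t z) (ht : ∀ t, In univ fun z => f (σ t z))
    (hW : ∀ t, W t (Φ f) = Φ fun z => f (σ t z)) {k : Fn}
    (hk : ∀ z, k z = -fderiv ℝ f z (g' z + a')) : Gn W (Φ f) (I • Φ k) := by
  have d := der h.bd hf hg ha g0 a0 (by simpa only [e] using ht)
  simp only [e, ← hW] at d
  rw [Gn, smul_smul, Complex.I_mul_I, neg_one_smul, ← map_neg]
  convert d
  simp [hk]

theorem gn_ut (h : Tc c Φ) (hf : In univ f) (v : V) :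
    Gn (fun t => Ut c.Q (t • v)) (Φ f) (I • Φ (dv v f)) :=
  gn_of h hf (hasDerivAt_const 0 1) ((hasDerivAt_id' (0 : ℝ)).smul_const v).fun_neg rfl (by simp)
    (σ := fun t z => z + -(t • v)) (fun _ _ => rfl) (fun _ => in_tr hf _ fun _ _ => trivial)
    (fun _ => ut_phi h hf _) fun z => by simp [dv_eq (diff hf z)]

theorem Tc.gn (h : Tc c φ) (hf : In univ f) (v : V) :
    Gn (fun t => Ut c.Q (t • v)) (φ f) (I • φ (dv v f)) := by
  obtain ⟨Φ, e⟩ := ext_lin h.lin
  rw [← e f hf, ← e _ ((lo_dv v).mem hf)]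
  exact gn_ut (h.congr e) hf v

theorem gn_mi (h : P0 c Φ) (hf : In univ f) (i : Fin 2) :
    Gn (Mi c.Q i) (Φ f) (I • Φ (Mc i f)) := by
  have d := hasDerivAt_id' (0 : ℝ)
  refine gn_of h.toTc hf (((d.smul_const ((mdL (ex i)).smulRight va - beL.smulRight (ex i))).const_add
    1).fun_add (((d.fun_pow 2).div_const 2).smul_const (beL.smulRight va))) (hasDerivAt_const 0 0)
    (by simp) rfl (σ := fun t => gap (-(t • e2 i)))
    (fun t z => null_ext ?_ (by simp) (by simp [smul_comm t]))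
    (fun _ => in_gap hf _ fun _ _ => trivial) (fun t => ?_) fun z => ?_
  · simp [md_ex, d2_neg, d2_neg_l, d2_smul, d2_smul_l]
    ring
  · have k := h.rot (t • e2 i) _ (in_gap hf (-(t • e2 i)) fun _ _ => trivial)
    simp only [gap_gap, neg_add_cancel, gap_zero] at k
    exact k
  · simp [Mc, dv_eq (diff hf z), md_ex]
    ring

theorem gn_bo (h : P0 c Φ) (hf : In univ f) : Gn (Bo c.Q) (Φ f) (I • Φ (Bc f)) := by
  have e : ∀ t, Real.exp t * Real.exp (-t) = 1 := fun t => by simp [← Real.exp_add]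
  have e' : ∀ t, Real.exp (-t) * Real.exp t = 1 := fun t => by simp [← Real.exp_add]
  refine gn_of h.toTc hf (((((hasDerivAt_neg' (0 : ℝ)).exp.sub_const 1).smul_const
    (alL.smulRight va)).const_add 1).fun_add (((Real.hasDerivAt_exp 0).sub_const 1).smul_const
      (beL.smulRight vb))) (hasDerivAt_const 0 0) (by simp) rfl
    (σ := fun t => scp (Real.exp (-t)) (Real.exp t)) (fun t z => null_ext ?_ ?_ (by simp [e']))
    (fun _ => in_scp hf (Real.exp_pos _) (Real.exp_pos _) fun _ _ => trivial) (fun t => ?_)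
    fun z => ?_
  · simp
    ring
  · simp
    ring
  · have k := h.bo t _ (in_scp hf (Real.exp_pos (-t)) (Real.exp_pos t) fun _ _ => trivial)
    rwa [funext fun z => congrArg f (scp_scp z (Real.exp_pos _).le (Real.exp_pos _).le), e, e',
      funext fun z => congrArg f (scp_one z)] at k
  · simp [Bc, dv_eq (diff hf z)]
    ring

/-- the mean ergodic theorem along a null ray -/
theorem erg (g : GRP c) {a : V} (ha : IsNull a) {v : Completion D}
    (hv : inner ℂ c.Om v = 0) : Tendsto (fun t : ℝ => ∫ y in (0 : ℝ)..1,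
      (Ut c.Q ((t * y) • a) v - v)) atTop (𝓝 (-v)) := by
  have h := Kin.thin c.bR c.ct c.bV volume (ContinuousLinearMap.toSpanSingleton ℝ a) (x := 1)
    (.inl (by simpa using ha)) (u := (Set.Ioc (0 : ℝ) 1).indicator 1)
    ((integrable_indicator_iff measurableSet_Ioc).2 (integrableOn_const (by simp))) v
  rw [show inner ℂ (om c.Q) v = 0 from hv, zero_smul, smul_zero] at h
  have h1 := h.sub_const v
  rw [zero_sub] at h1
  refine h1.congr fun t => ?_
  rw [intervalIntegral.integral_sub ((g.ut_cont (by fun_prop) continuous_const).intervalIntegrable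
    _ _) (by simp), intervalIntegral.integral_const, sub_zero, one_smul,
    intervalIntegral.integral_of_le zero_le_one, ← integral_indicator measurableSet_Ioc]
  congr 2 with y
  by_cases hy : y ∈ Set.Ioc (0 : ℝ) 1 <;> simp [hy, P352X.Br.Ut_apply]

/-- **integration along light rays** -/
theorem ta (g : GRP c) {O : Set V} {a : V} (ha : IsNull a)
    (hO : ∀ t : ℝ, 0 ≤ t → ∀ z ∈ O, z + t • a ∈ O) {v v' k k' : Completion D}
    (h : Gn (fun t => Ut c.Q (t • a)) v k) (h' : Gn (fun t => Ut c.Q (t • a)) v' k')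
    (p : inner ℂ c.Om v = 0) (p' : inner ℂ c.Om v' = 0) (hp : Pr (c.N O) c.Om (I • k) (I • k')) :
    Pr (c.N O) c.Om v v' := by
  have G := g.ugT a
  have key : ∀ t : ℝ, 0 ≤ t →
      Pr (c.N O) c.Om (Ut c.Q (t • a) v - v) (Ut c.Q (t • a) v' - v') := fun t ht => by
    have e1 := G.integral_eq h 0 t
    have e2 := G.integral_eq h' 0 t
    rw [G.zero] at e1 e2
    rw [← e1, ← e2]
    refine Pr.intervalIntegral (((G.cont _).const_smul I).intervalIntegrable _ _)
      (((G.cont _).const_smul I).intervalIntegrable _ _) fun r hr => ?_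
    rw [uIoc_of_le ht] at hr
    simpa only [map_smul] using g.pr_ut hp (r • a) (hO r hr.1.le)
  have cn : ∀ (t : ℝ) (w : Completion D), IntervalIntegrable
      (fun y : ℝ => Ut c.Q ((t * y) • a) w - w) volume 0 1 := fun t w =>
    ((g.ut_cont (by fun_prop) continuous_const).sub continuous_const).intervalIntegrable _ _
  simpa only [neg_neg] using (Pr.closed ((eventually_ge_atTop 0).mono fun t ht =>
    Pr.intervalIntegral (cn t v) (cn t v') fun y hy => key _ (mul_nonneg ht (by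
      rw [uIoc_of_le zero_le_one] at hy
      exact hy.1.le))) (erg g ha p) (erg g ha p')).neg

theorem Tc.ta (g : GRP c) (h : Tc c φ) (h' : Tc c φ') {O : Set V} {a : V} (ha : IsNull a)
    (hO : ∀ t : ℝ, 0 ≤ t → ∀ z ∈ O, z + t • a ∈ O) (hf : In univ f)
    (hp : Pr (c.N O) c.Om (φ (dv a f)) (φ' (dv a (bar f)))) : Pr (c.N O) c.Om (φ f) (φ' (bar f)) :=
  G1.ta g ha hO (h.gn hf a) (h'.gn hf.bar a) (h.perp f hf) (h'.perp _ hf.bar) (by
    simpa only [smul_smul, Complex.I_mul_I, neg_one_smul] using hp.neg)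

theorem rc_inv (r : ℝ) (t : ℝ) (ht : 0 ≤ t) : ∀ z ∈ Rc r 0, z + t • va ∈ Rc r 0 := fun z hz => by
  obtain ⟨a, b, d⟩ := mem_Rc.1 hz
  refine mem_Rc.2 ⟨by simpa using a, by simpa using b, ?_⟩
  have := mul_nonneg ht b.le
  simp only [mu_eq, al_add, al_smul, al_va, be_add, be_smul, be_va, tx_add, tx_smul, tx_va,
    smul_zero, add_zero, mul_zero] at d ⊢
  linarith

/-- the class of pairs of local scalar distributions -/
structure C1 (c : Ctx D) (Φ Φ' : Fn →ₗ[ℂ] Completion D) : Prop where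
  cov : P0 c Φ
  cov' : P0 c Φ'
  pr : ∀ r > 0, ∀ f, In (Rc r 0) f → Pr (c.N (Rc r 0)) c.Om (Φ f) (Φ' (bar f))

theorem C1.symm (h : C1 c Φ Φ') : C1 c Φ' Φ :=
  ⟨h.cov', h.cov, fun r hr f hf => pr_symm (by simpa only [bar_bar] using h.pr r hr _ hf.bar)⟩

theorem ut_norm (t : T2 c) (a : V) (z : Completion D) : ‖Ut c.Q a z‖ = ‖z‖ :=
  ContinuousLinearMap.norm_map_of_mem_unitary (t.grp.uni _ _ _) z

theorem C1.dom (t : T2 c) (h : C1 c Φ Φ') {K : Set V} (hK : IsCompact K) (k : K ⊆ Hs 0) :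
    (∀ f, In K f → Dm c.SK (Φ f)) ∧ BD K fun f => ‖gen c.SK (Φ f)‖ := by
  obtain ⟨s, r, r0, hr⟩ := ex_cone hK k
  obtain ⟨C, hC⟩ := t.kd.a r r0
  have hK' := hK.image (f := fun z => z + s • va) (by fun_prop)
  have m : ∀ z, z + -s • va ∈ K → z ∈ (fun z => z + s • va) '' K := fun z hz => ⟨_, hz, by simp⟩
  have q : ∀ f, In K f → Dm c.SK (Φ f) ∧ ‖gen c.SK (Φ f)‖ ≤ C * (‖Φ (tr (-s • va) f)‖ +
      ‖Φ' (bar (tr (-s • va) f))‖ + ‖Φ (Bc (tr (-s • va) f))‖) := fun f hf => by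
    have a := in_tr hf (-s • va) m
    have b := gn_bo h.cov (all a)
    obtain ⟨a1, a2⟩ := hC _ _ (h.pr r r0 _ (mono a hr)) b.dm
    obtain ⟨a3, a4⟩ := a1.comm (t.grp.pa_S (-s))
    rw [show Pa c.Q (-s) (Φ (tr (-s • va) f)) = Φ f from h.cov.tra _ f (all hf)] at a3 a4
    rw [b.gen_eq, norm_smul, Complex.norm_I, one_mul] at a2
    exact ⟨a3, by rwa [a4, Pa, ut_norm t]⟩
  refine ⟨fun f hf => (q f hf).1, P352X.G1.BD.le (((((h.cov.bd _ hK').add ((h.cov'.bd _ hK').lo
    lo_bar)).add ((h.cov.bd _ hK').lo lo_Bc))).comp (cl_tr (-s • va)) fun f hf z hz =>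
      m z (hf (tsupp_tr f _ hz))) hK C fun f hf =>
        (q f hf).2.trans (mul_le_mul_of_nonneg_right (le_abs_self C) (by positivity))⟩

theorem C1.dm (t : T2 c) (h : C1 c Φ Φ') (hf : In (Hs 0) f) : Dm c.SK (Φ f) :=
  (h.dom t hf.2.1 hf.2.2).1 f ⟨hf.1, hf.2.1, le_rfl⟩

end G1

end Vale.Agent.P352X.ZZ
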