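import Vale.Agent.P352Z.R.G1.B

/-!
# P352Z, row NL: the defect of the geometric action of `K`
-/

set_option linter.all false

noncomputable section

open Set Filter Topology
open scoped SchwartzMap ContDiff

namespace Vale.Agent.P352X.ZZ

open Vale.Agent.P352 Vale.Agent.P352.GF Vale.Agent.P352.H246 Vale.Agent.P352.H755
open Vale.Agent.P352.H15
open UniformSpace (Completion)
open Complex (I)

namespace G1

variable {D : Type*} [NormedAddCommGroup D] [InnerProductSpace ℂ D] {c : Ctx D}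
  {Φ Φ' : Fn →ₗ[ℂ] Completion D} {f g : Fn} {y y' : V} {u u' : ℝ}

/-- the defect -/
def R0 (c : Ctx D) (Φ : Fn →ₗ[ℂ] Completion D) (f : Fn) : Completion D :=
  I • gen c.SK (Φ f) - Φ (Kc 2 f)

/-- the defect with the centre `y` -/
def RY (c : Ctx D) (Φ : Fn →ₗ[ℂ] Completion D) (y : V) (f : Fn) : Completion D :=
  Ut c.Q y (R0 c Φ (tr y f))

theorem ut_ut (t : T2 c) (x y : V) (z : Completion D) : Ut c.Q x (Ut c.Q y z) = Ut c.Q (x + y) z := by
  rw [t.grp.ut]
  rfl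

theorem ug_sk (t : T2 c) : UG c.SK :=
  .of (c.hS.zero _ t.grp.na) (fun _ _ => c.hS.add _ _ _ t.grp.na) (fun _ => t.grp.S_uni _ _ t.grp.na)
    fun _ => c.hS.cont _ _ t.grp.na

variable (t : T2 c) (h : C1 c Φ Φ')
include t h

theorem gn_ky (hf : In (Hs (be y)) f) :
    Gn (c.Ky y) (Φ f) (Ut c.Q y (gen c.SK (Φ (tr y f)))) :=
  ((h.dm t (hs_tr hf y (zero_add _).ge)).gn.map (W' := c.Ky y) (Ut c.Q y) fun s => by
    simp only [Ctx.Ky, mul_apply_eq_comp, ut_ut t, neg_add_cancel, t.grp.ut0,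
      one_apply_eq_self]).cast (h.cov.tra y f (all hf)).symm rfl

theorem ry_eq (hf : In (Hs (be y)) f) : RY c Φ y f = I • gen (c.Ky y) (Φ f) - Φ fun z =>
    -fderiv ℝ f z (cK va (z - y)) + ((2 * 2 - 8) * (be z - be y) : ℝ) * f z := by
  rw [RY, R0, map_sub, map_smul, (gn_ky t h hf).gen_eq,
    ut_phi h.cov.toTc (all ((lo_Kc 2).mem (hs_tr hf y (zero_add _).ge))), funext (Kc_tr (diff hf) y 2)]

theorem ry_a (hf : In (Hs 0) f) (s : ℝ) : RY c Φ (s • va) f = R0 c Φ f := by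
  have e : c.Ky (s • va) = c.SK := funext fun r => by
    rw [Ctx.Ky, ← Pa, t.grp.pa_S, Pa, mul_assoc, ← t.grp.ut, add_neg_cancel, t.grp.ut0, mul_one]
  rw [ry_eq t h (by simpa using hf), e, R0]
  congr 2
  funext z
  rw [Kc_eq (diff hf z), show cK va (z - s • va) = cK va z from
    null_ext (by simp [al_cK]) (by simp [be_cK]) (by simp [tx_cK])]
  simp

theorem ry_x (hf : In (Hs 0) f) (x : R2) : RY c Φ (tv x) f = R0 c Φ f := by
  have m := gn_mi h.cov (all hf)
  have p : Gn (Pa c.Q) _ _ := gn_ut h.cov.toTc (all hf) va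
  have e : (fun z => -fderiv ℝ f z (cK va (z - tv x)) + ((2 * 2 - 8) * (be z - be (tv x)) : ℝ) * f z)
      = Kc 2 f + (2 * x 0 : ℂ) • Mc 0 f + (2 * x 1 : ℂ) • Mc 1 f - (d2 x x : ℂ) • dv va f := by
    funext z
    rw [show cK va (z - tv x) = cK va z - (2 * d2 x (tx z)) • va - (2 * be z) • tv x +
      d2 x x • va from null_ext (by simp [al_cK, d2_sub, d2_sub_l, d2_comm x]; ring)
        (by simp [be_cK]) (by simp [tx_cK, smul_sub]), tv_eq, d2_eq x (tx z)]
    simp [Kc_eq (diff hf z), Mc, dv_eq (diff hf z)]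
    ring
  rw [ry_eq t h (by simpa using hf), (t.gen.ky x _ (h.dm t hf) (fun i => (m i).dm) p.dm).gen_eq, e,
    R0, p.gen_eq]
  simp only [Fin.sum_univ_two, (m _).gen_eq, map_add, map_sub, map_smul, ← Complex.coe_smul]
  push_cast
  match_scalars <;> simp [← mul_assoc] <;> ring_nf <;> simp

theorem ry_be (hf : In (Hs (be y)) f) (e : be y' = be y) : RY c Φ y' f = RY c Φ y f := by
  have e' : y' = y + (al (y' - y) • va + tv (tx (y' - y))) :=
    null_ext (by simp) (by simp [e]) (by simp)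
  have k := hs_tr hf y (zero_add _).ge
  rw [RY.eq_def c Φ y, ← ry_a t h k (al (y' - y)), RY.eq_def c Φ (_ • va),
    ← ry_x t h (hs_tr k _ (by simp)) (tx (y' - y)), RY.eq_def c Φ (tv _), tr_tr, tr_tr, ut_ut t,
    ut_ut t, add_assoc, ← e', add_comm (tv _), add_comm _ y, ← e', RY]

omit t h in
/-- the defect for `K(u)` -/
def R (c : Ctx D) (Φ : Fn →ₗ[ℂ] Completion D) (u : ℝ) : Fn → Completion D := RY c Φ (u • vb)

theorem r_eq (hf : In (Hs u) f) (e : be y = u) : RY c Φ y f = R c Φ u f :=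
  ry_be t h (by simpa using hf) (by simpa using e)

theorem r_tra (hf : In (Hs u) f) (a : V) : Ut c.Q a (R c Φ (u - be a) (tr a f)) = R c Φ u f := by
  rw [R, RY, ut_ut t, tr_tr, add_comm a]
  exact r_eq t h hf (by simp)

theorem r_map {U : Completion D →L[ℂ] Completion D} (L : V →L[ℝ] V) {s : ℝ} {κ l : ℂ} (s0 : 0 < s)
    {τ : Fn →ₗ[ℂ] Completion D} (h0 : ∀ f, In (Hs 0) f → Gn c.SK (τ f) (-I • τ (Kc 2 f)))
    (h1 : ∀ z, be (L z) = s * be z) (h2 : ∀ z, cK va (L z) = s • L (cK va z))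
    (h3 : ∀ y, U * Ut c.Q y = Ut c.Q (L y) * U) (h4 : ∀ r, U * c.SK r = c.SK (r / s) * U)
    (h5 : ∀ f, In univ f → U (Φ fun z => f (L z)) = κ • (Φ f + l • τ f))
    (h6 : ∀ f, In (Hs 0) f → In (Hs 0) fun z => f (L z)) (hf : In (Hs (s * u)) f) :
    U (R c Φ u fun z => f (L z)) = (κ / s) • R c Φ (s * u) f := by
  have k := hs_tr hf (L (u • vb)) (v := 0) (by simp [h1, mul_comm])
  have s1 : (s : ℂ) ≠ 0 := Complex.ofReal_ne_zero.2 s0.ne'
  have e1 := ((h.dm t (h6 _ k)).gn.scale (W' := c.SK) U s (ψ' := U (Φ fun z => tr _ f (L z))) fun r => by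
    rw [← mul_apply_eq_comp U, h4, mul_div_cancel_left₀ r s0.ne']
    rfl).gen_eq
  have e2 := h5 _ (all ((lo_Kc 2).mem k))
  rw [h5 _ (all k), (((h.dm t k).gn.add ((h0 _ k).smul l)).smul κ).gen_eq,
    ← Complex.coe_smul] at e1
  rw [funext (Kc_lin (diff k) L s 2 h1 h2), show (fun z => (s : ℂ) * Kc 2 (fun z =>
    tr (L (u • vb)) f (L z)) z) = (s : ℂ) • Kc 2 fun z => tr (L (u • vb)) f (L z) from rfl, map_smul,
    map_smul] at e2
  rw [← r_eq t h hf (y := L (u • vb)) (by simp [h1, mul_comm]), R, RY, RY, ← mul_apply_eq_comp, h3,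
    mul_apply_eq_comp, ← map_smul (Ut _ _), show tr (u • vb) (fun z => f (L z)) =
      fun z => tr (L (u • vb)) f (L z) from funext fun z => by simp only [tr, map_add], R0, R0,
    map_sub, map_smul U, (eq_inv_smul_iff₀ s1).2 e1.symm, (eq_inv_smul_iff₀ s1).2 e2]
  congr 1
  match_scalars
  · field_simp
  · field_simp
    rw [Complex.I_sq]
    ring
  · field_simp

theorem r_rot (hf : In (Hs u) f) (w : R2) :
    Ga c.Q w (R c Φ u fun z => f (gap w z)) = R c Φ u f := by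
  simpa using r_map t h (U := Ga c.Q w) (gapL w) (κ := 1) (l := 0) one_pos (τ := 0)
    (fun _ _ => by simpa using gn_zero) (by simp) (fun z => null_ext
    (by simp [al_cK, be_cK, tx_cK, d2_add, d2_add_l, d2_smul, d2_smul_l, d2_comm w]; ring)
    (by simp [be_cK]) (by
      simp only [gapL_apply, tx_cK, be_cK, tx_gap, be_gap, one_smul]
      module)) (by simpa using t.grp.ga_ut w)
    (by simpa using t.grp.ga_S w) (by simpa using h.cov.rot w)
    (fun f hf => by simpa using in_gap hf w fun z hz => by simpa [Hs] using hz) (u := u)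
    (by simpa using hf)

omit t h in
/-- the defect scales without logarithms -/
def RS (c : Ctx D) (Φ : Fn →ₗ[ℂ] Completion D) : Prop := ∀ r s u f, 0 < r → 0 < s →
  In (Hs (s * u)) f → Usc c.Q r s (R c Φ u fun z => f (scp r s z)) =
    ((r : ℂ)⁻¹ * (s : ℂ)⁻¹ / s) • R c Φ (s * u) f

theorem r_sca {τ : Fn →ₗ[ℂ] Completion D} (h0 : ∀ f, In (Hs 0) f → Gn c.SK (τ f) (-I • τ (Kc 2 f)))
    (h5 : ∀ r s, 0 < r → 0 < s → ∃ l : ℂ, ∀ f, In univ f → Usc c.Q r s (Φ fun z => f (scp r s z)) =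
      ((r : ℂ)⁻¹ * (s : ℂ)⁻¹) • (Φ f + l • τ f)) : RS c Φ := fun r s u f r0 s0 hf =>
  let ⟨_, e⟩ := h5 r s r0 s0
  r_map t h (scpL r s) s0 h0 (by simp) (fun z => null_ext (by
      simp only [scpL_apply, al_cK, tx_scp, al_smul, al_scp, d2_smul, d2_smul_l, ← mul_assoc,
        Real.mul_self_sqrt (mul_pos r0 s0).le, mul_comm s r])
    (by simp [be_cK]; ring) (by
      simp only [scpL_apply, tx_cK, tx_scp, be_scp, tx_smul]
      module)) (fun y => t.grp.sc_ut r s y r0 s0) (fun q => t.grp.sc_S r s q r0 s0) e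
    (fun f hf => in_scp hf r0 s0 fun z hz => neg_of_mul_neg_right (by simpa [Hs] using hz) s0.le) hf

theorem r_sca0 (n : c.Cov2 Φ (-1) (-1)) : RS c Φ :=
  r_sca t h (τ := 0) (fun _ _ => by simpa using gn_zero) fun r s r0 s0 => ⟨0, fun f hf => by
    rw [n.sca r s f r0 s0 hf, w1, zero_smul, add_zero]⟩

theorem r_lin (hf : In (Hs u) f) (hg : In (Hs u) g) (a : ℂ) :
    R c Φ u (f + a • g) = R c Φ u f + a • R c Φ u g := by
  have k := hs_tr hf (u • vb) (v := 0) (by simp)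
  have k' := hs_tr hg (u • vb) (v := 0) (by simp)
  rw [R, RY, RY, RY, show tr (u • vb) (f + a • g) = tr (u • vb) f + a • tr (u • vb) g from rfl, R0,
    R0, R0, Kc_add (diff k) (diff k'), map_add, map_smul,
    gen_add (h.dm t k) ((h.dm t k').smul a), gen_smul a (h.dm t k')]
  simp only [map_add, map_sub, map_smul]
  module

theorem r_bd {K : Set V} (hK : IsCompact K) (k : K ⊆ Hs u) : BD K fun f => ‖R c Φ u f‖ := by
  have hK' := hK.image (f := fun z => z - u • vb) (by fun_prop)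
  refine P352X.G1.BD.le (((h.dom t hK' ?_).2.add ((h.cov.bd _ hK').lo (lo_Kc 2))).comp (cl_tr (u • vb))
    fun f hf z hz => ⟨_, hf (tsupp_tr f _ hz), by simp⟩) hK 1 fun f _ => ?_
  · rintro _ ⟨z, hz, rfl⟩
    simpa [Hs] using k hz
  · rw [R, RY, ut_norm t, R0]
    simpa [norm_smul] using norm_sub_le (I • gen c.SK (Φ (tr (u • vb) f))) _

theorem r_perp (hf : In (Hs u) f) : inner ℂ c.Om (R c Φ u f) = 0 := by
  have k := hs_tr hf (u • vb) (v := 0) (by simp)
  rw [R, RY, ← t.grp.vac 1 GF.one (u • vb), ← Ut, Ut, inner_unitary (t.grp.uni _ _ _), R0,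
    inner_sub_right, inner_smul_right, (ug_sk t).symm (gn_of_fix fun s => c.hS.vac _ s t.grp.na)
      (h.dm t k).gn, h.cov.perp _ (all ((lo_Kc 2).mem k))]
  simp

theorem r_aff (E : EE c) {lo : ℝ} (hf : In (Hs lo) f) (hi : ℝ) :
    ∃ A B, ∀ u ∈ Ioo lo hi, R c Φ u f = A + (u : ℂ) • B := by
  have k : ∀ u ∈ Ioo lo hi, In (Hs (be (u • vb))) f := fun u hu =>
    mono hf fun z hz => by simpa [Hs] using hz.trans hu.1
  have p : Gn (Pb c.Q) _ _ := gn_ut h.cov.toTc (all hf) vb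
  obtain ⟨k0, k1, e⟩ := E lo hi (Φ f) (fun u hu => (gn_ky t h (k u hu)).dm) p.dm
  refine ⟨I • k0 - Φ (Kc 2 f), I • k1 - Φ fun z => fderiv ℝ f z ((2 : ℝ) • z + (2 * be z) • vb -
    (2 * al z) • va) + 4 * f z, fun u hu => ?_⟩
  rw [R, ry_eq t h (k u hu), e u hu, p.gen_eq, show (fun z => -fderiv ℝ f z (cK va (z - u • vb)) +
    ((2 * 2 - 8) * (be z - be (u • vb)) : ℝ) * f z) = Kc 2 f + (u : ℂ) • (fun z => fderiv ℝ f z
      ((2 : ℝ) • z + (2 * be z) • vb - (2 * al z) • va) + 4 * f z) - (2 * u ^ 2 : ℂ) • dv vb f from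
    funext fun z => by
      rw [show cK va (z - u • vb) = cK va z - u • ((2 : ℝ) • z + (2 * be z) • vb -
        (2 * al z) • va) + (2 * u ^ 2) • vb from null_ext (by simp [al_cK]) (by simp [be_cK]; ring)
          (by
            simp only [tx_cK, tx_add, tx_sub, tx_smul, be_sub, be_smul, be_vb, tx_vb, tx_va]
            module)]
      simp [Kc_eq (diff hf z), dv_eq (diff hf z)]
      ring]
  simp only [map_add, map_sub, map_smul]
  push_cast
  match_scalars <;> simp [← mul_assoc] <;> ring_nf <;> simp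

end G1

end Vale.Agent.P352X.ZZ
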